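import Crest.Agent.X212.Prd34.Top
import Crest.Agent.R202.Miranda
import Crest.Agent.X212.Lad50.Alex
import Crest.Agent.X212.Sol49.Fill

-- ▼ part X212/Prd34/Sep
section

/-!
# X212 / T layer: a plane at bounded distance from the floor separates three-space (helper34)
-/

set_option autoImplicit false

open Set Metric Topology

namespace Crest.Agent.X212.Prd34

open Crest.Agent.R096.Ce_537 Crest.Agent.X212.Lad50

@[simp] lemma lv_zero (c : ℝ) (y : P) : lv c y 0 = y 0 := rfl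
@[simp] lemma lv_one (c : ℝ) (y : P) : lv c y 1 = y 1 := rfl
@[simp] lemma lv_two (c : ℝ) (y : P) : lv c y 2 = c := rfl
@[simp] lemma pr_zero (x : V) : pr x 0 = x 0 := rfl
@[simp] lemma pr_one (x : V) : pr x 1 = x 1 := rfl

lemma pr_lv (c : ℝ) (y : P) : pr (lv c y) = y := by
  funext i; fin_cases i <;> rfl

lemma lv_pr (x : V) : lv (x 2) (pr x) = x := by
  funext i; fin_cases i <;> rfl

lemma continuous_lv (c : ℝ) : Continuous (lv c) := by
  refine continuous_pi fun i => ?_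
  fin_cases i
  · exact continuous_apply 0
  · exact continuous_apply 1
  · exact continuous_const

lemma continuous_pr : Continuous pr := by
  refine continuous_pi fun i => ?_
  fin_cases i
  · exact continuous_apply 0
  · exact continuous_apply 1

lemma pl_lv (c : ℝ) (A : Set P) : PLOn (lv c) A :=
  pl_vec3 (pl_coord 0 A) (pl_coord 1 A) (plOn_const c A)

lemma pl_pr (A : Set V) : PLOn pr A := pl_vec2 (pl_coord 0 A) (pl_coord 1 A)

/-- two local sides, seen from every nearby point of `S` -/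
def Two (S : Set V) (x : V) : Prop := ∃ B ∈ 𝓝 x, ∃ A A' : Set V, IsPreconnected A ∧
  IsPreconnected A' ∧ B \ S = A ∪ A' ∧ ∀ z ∈ B ∩ S, z ∈ closure A ∧ z ∈ closure A'

lemma fl_mem_closure (s : ℝ) (hs : |s| = 1) {y : V} (hy : y ∈ cube 3 ∩ fl) :
    y ∈ closure (cube 3 ∩ {y | 0 < s * y 2}) := by
  have ht : Filter.Tendsto (fun t : ℝ => Function.update y 2 (t * s)) (𝓝[>] 0) (𝓝 y) := by
    have : Continuous (fun t : ℝ => Function.update y 2 (t * s)) := by fun_prop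
    have h := this.tendsto 0
    have e : Function.update y 2 (0 * s) = y := by
      rw [zero_mul, ← mem_fl.1 hy.2, Function.update_eq_self]
    rw [e] at h
    exact h.mono_left nhdsWithin_le_nhds
  refine mem_closure_of_tendsto ht ?_
  filter_upwards [Ioo_mem_nhdsGT (zero_lt_one (α := ℝ))] with t ht
  have hs2 : s * s = 1 := by rw [← abs_mul_abs_self, hs]; norm_num
  refine ⟨?_, ?_⟩
  · simp only [cube, mem_closedBall_zero_iff]
    rw [pi_norm_le_iff_of_nonneg zero_le_one]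
    intro i
    by_cases hi : i = 2
    · subst hi
      rw [Function.update_self, Real.norm_eq_abs, abs_mul, hs, abs_of_pos ht.1]
      linarith [ht.2]
    · rw [Function.update_of_ne hi]
      exact (norm_le_pi_norm y i).trans (by simpa [cube] using hy.1)
  · show 0 < s * Function.update y 2 (t * s) 2
    rw [Function.update_self]
    nlinarith [ht.1]

lemma chart_two {S B : Set V} (e : PLEquiv (cube 3) B) (h2 : B ∩ S = e.f '' (cube 3 ∩ fl)) :
    ∃ A A' : Set V, IsPreconnected A ∧ IsPreconnected A' ∧ B \ S = A ∪ A' ∧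
      ∀ z ∈ B ∩ S, z ∈ closure A ∧ z ∈ closure A' := by
  refine ⟨e.f '' (cube 3 ∩ upo), e.f '' (cube 3 ∩ dno),
    convex_upo.isPreconnected.image _ (e.pf.1.mono inter_subset_left),
    convex_dno.isPreconnected.image _ (e.pf.1.mono inter_subset_left), ?_, ?_⟩
  · have nd : ∀ y ∈ cube 3, y ∉ fl → e.f y ∉ S := by
      intro y hy hf hd
      have : e.f y ∈ e.f '' (cube 3 ∩ fl) := h2 ▸ ⟨e.mf hy, hd⟩
      obtain ⟨z, hz, hzy⟩ := this
      exact hf (e.injOn hz.1 hy hzy ▸ hz.2)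
    ext z; constructor
    · rintro ⟨a, b⟩
      rcases cube_split (y := e.g z) with h | h | h
      · exact Or.inl ⟨_, ⟨e.mg a, h⟩, e.ri z a⟩
      · have : e.f (e.g z) ∈ B ∩ S := h2 ▸ ⟨_, ⟨e.mg a, h⟩, rfl⟩
        rw [e.ri z a] at this
        exact (b this.2).elim
      · exact Or.inr ⟨_, ⟨e.mg a, h⟩, e.ri z a⟩
    · rintro (⟨y, hy, rfl⟩ | ⟨y, hy, rfl⟩)
      · exact ⟨e.mf hy.1, nd y hy.1 fun hf => (ne_of_gt (mem_upo.1 hy.2)) hf⟩
      · exact ⟨e.mf hy.1, nd y hy.1 fun hf => (ne_of_lt (mem_dno.1 hy.2)) hf⟩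
  · intro z hz
    rw [h2] at hz
    obtain ⟨y, hy, rfl⟩ := hz
    have hc : ContinuousWithinAt e.f (cube 3) y := e.pf.1 y hy.1
    constructor
    · refine (hc.mono inter_subset_left).mem_closure_image ?_
      simpa [upo] using fl_mem_closure 1 (by simp) hy
    · refine (hc.mono inter_subset_left).mem_closure_image ?_
      simpa [dno] using fl_mem_closure (-1) (by simp) hy

lemma FlatAt.two {S : Set V} {x : V} (h : FlatAt S x) : Two S x := by
  obtain ⟨B, e, -, hB, h2⟩ := h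
  exact ⟨B, hB, chart_two e h2⟩

/-- an embedded plane at bounded distance from the floor -/
structure Pln (u : P → V) : Prop where
  cont : Continuous u
  inj : Function.Injective u
  bdd : ∃ C, ∀ y, ‖u y - lv 0 y‖ ≤ C

namespace Pln

variable {u : P → V}

lemma coord (h : Pln u) : ∃ C, 0 ≤ C ∧ ∀ y, |u y 0 - y 0| ≤ C ∧ |u y 1 - y 1| ≤ C ∧ |u y 2| ≤ C := by
  obtain ⟨C, hC⟩ := h.bdd
  refine ⟨C, (norm_nonneg _).trans (hC 0), fun y => ?_⟩
  have := fun i => (norm_le_pi_norm (u y - lv 0 y) i).trans (hC y)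
  exact ⟨by simpa using this 0, by simpa using this 1, by simpa using this 2⟩

lemma isClosedEmbedding (h : Pln u) : IsClosedEmbedding u := by
  obtain ⟨C, hC0, hC⟩ := h.coord
  refine IsClosedEmbedding.of_continuous_injective_isClosedMap h.cont h.inj
    (IsProperMap.isClosedMap ?_)
  rw [isProperMap_iff_isCompact_preimage]
  refine ⟨h.cont, fun K hK => ?_⟩
  obtain ⟨R, hR⟩ := hK.isBounded.subset_closedBall 0
  refine (isCompact_closedBall (0 : P) (|R| + C)).of_isClosed_subset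
    (hK.isClosed.preimage h.cont) fun y hy => ?_
  have h1 : ‖u y‖ ≤ R := by simpa using hR hy
  rw [mem_closedBall_zero_iff, pi_norm_le_iff_of_nonneg (by positivity)]
  have a0 := (norm_le_pi_norm (u y) 0).trans h1
  have a1 := (norm_le_pi_norm (u y) 1).trans h1
  obtain ⟨b0, b1, -⟩ := hC y
  rw [Real.norm_eq_abs] at a0 a1
  have := le_abs_self R
  intro i
  rw [Real.norm_eq_abs]
  fin_cases i
  · show |y 0| ≤ _
    rw [abs_le] at *; constructor <;> linarith [a0.1, a0.2, b0.1, b0.2]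
  · show |y 1| ≤ _
    rw [abs_le] at *; constructor <;> linarith [a1.1, a1.2, b1.1, b1.2]

lemma isClosed (h : Pln u) : IsClosed (range u) := h.isClosedEmbedding.isClosed_range

omit u in
lemma isOpen_joined {S : Set V} (hS : IsClosed S) (p : V → Prop) :
    IsOpen {x | ∃ z, p z ∧ JoinedIn Sᶜ x z} := by
  rw [isOpen_iff_mem_nhds]
  rintro x ⟨z, hz, hj⟩
  filter_upwards [pathComponentIn_mem_nhds (hS.isOpen_compl.mem_nhds hj.source_mem)] with y hy
  exact ⟨z, hz, (show JoinedIn Sᶜ x y from hy).symm.trans hj⟩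

omit u in
lemma isOpen_not_joined {S : Set V} (hS : IsClosed S) (p : V → Prop) :
    IsOpen (Sᶜ \ {x | ∃ z, p z ∧ JoinedIn Sᶜ x z}) := by
  rw [isOpen_iff_mem_nhds]
  rintro x ⟨hx, hn⟩
  filter_upwards [pathComponentIn_mem_nhds (hS.isOpen_compl.mem_nhds hx)] with y hy
  have hj : JoinedIn Sᶜ x y := hy
  exact ⟨hj.target_mem, fun ⟨z, hz, hj'⟩ => hn ⟨z, hz, hj.trans hj'⟩⟩

lemma isOpen_Dn (h : Pln u) : IsOpen (Dn u) := isOpen_joined h.isClosed _
lemma isOpen_Up (h : Pln u) : IsOpen (Up u) := isOpen_joined h.isClosed _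

lemma Dn_sub : Dn u ⊆ (range u)ᶜ := fun _ ⟨_, _, hj⟩ => hj.source_mem
lemma Up_sub : Up u ⊆ (range u)ᶜ := fun _ ⟨_, _, hj⟩ => hj.source_mem

lemma low {z : V} (hz : ∀ y, z 2 < u y 2) : z ∈ Dn u :=
  ⟨z, hz, JoinedIn.refl (by rintro ⟨y, rfl⟩; exact lt_irrefl _ (hz y))⟩

lemma high {z : V} (hz : ∀ y, u y 2 < z 2) : z ∈ Up u :=
  ⟨z, hz, JoinedIn.refl (by rintro ⟨y, rfl⟩; exact lt_irrefl _ (hz y))⟩

lemma Dn_of_joined {x z : V} (hz : z ∈ Dn u) (hj : JoinedIn (range u)ᶜ x z) : x ∈ Dn u := by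
  obtain ⟨w, hw, hj'⟩ := hz
  exact ⟨w, hw, hj.trans hj'⟩

lemma Up_of_joined {x z : V} (hz : z ∈ Up u) (hj : JoinedIn (range u)ᶜ x z) : x ∈ Up u := by
  obtain ⟨w, hw, hj'⟩ := hz
  exact ⟨w, hw, hj.trans hj'⟩

lemma exists_low (h : Pln u) : ∃ z : V, ∀ y, z 2 < u y 2 := by
  obtain ⟨C, -, hC⟩ := h.coord
  exact ⟨lv (-C - 1) 0, fun y => by have := (abs_le.1 (hC y).2.2).1; simp; linarith⟩

lemma exists_high (h : Pln u) : ∃ z : V, ∀ y, u y 2 < z 2 := by
  obtain ⟨C, -, hC⟩ := h.coord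
  exact ⟨lv (C + 1) 0, fun y => by have := (abs_le.1 (hC y).2.2).2; simp; linarith⟩

/-- **separation** (Poincaré–Miranda) -/
theorem disjoint (h : Pln u) : Disjoint (Dn u) (Up u) := by
  rw [disjoint_left]
  rintro x ⟨z, hz, hj⟩ ⟨z', hz', hj'⟩
  obtain ⟨γ, hγ⟩ := hj.symm.trans hj'
  obtain ⟨C, hC0, hC⟩ := h.coord
  obtain ⟨M, hM⟩ := (isCompact_range γ.continuous).isBounded.subset_closedBall 0
  have hb : ∀ t : ℝ, ∀ i, |γ.extend t i| ≤ M := by
    intro t i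
    have : γ.extend t ∈ range γ := by rw [← γ.extend_range]; exact mem_range_self t
    have h1 : ‖γ.extend t‖ ≤ M := by simpa using hM this
    exact (norm_le_pi_norm _ i).trans h1
  set R := C + M with hR
  let Y : V → P := fun w => ![R * w 0, R * w 1]
  let g : V → V := fun w => γ.extend ((w 2 + 1) / 2)
  have cY : Continuous Y := by
    refine continuous_pi fun i => ?_
    fin_cases i <;> simp [Y] <;> fun_prop
  have cg : Continuous g := γ.continuous_extend.comp (by fun_prop)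
  have cu : Continuous fun w => u (Y w) := h.cont.comp cY
  let f : V → V := fun w => ![u (Y w) 0 - g w 0, u (Y w) 1 - g w 1, g w 2 - u (Y w) 2]
  have cf : Continuous f := by
    refine continuous_pi fun i => ?_
    fin_cases i
    · exact ((continuous_apply 0).comp cu).sub ((continuous_apply 0).comp cg)
    · exact ((continuous_apply 1).comp cu).sub ((continuous_apply 1).comp cg)
    · exact ((continuous_apply 2).comp cg).sub ((continuous_apply 2).comp cu)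
  obtain ⟨w, -, hw⟩ := R202.poincare_miranda f cf.continuousOn (by
      intro w _ i hi
      obtain ⟨b0, b1, -⟩ := hC (Y w)
      fin_cases i
      · have e : Y w 0 = R := by show R * w 0 = R; rw [show w 0 = 1 from hi, mul_one]
        have := abs_le.1 (hb ((w 2 + 1) / 2) 0)
        rw [e, abs_le] at b0
        show 0 ≤ u (Y w) 0 - γ.extend ((w 2 + 1) / 2) 0
        linarith [b0.1, this.2]
      · have e : Y w 1 = R := by show R * w 1 = R; rw [show w 1 = 1 from hi, mul_one]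
        have := abs_le.1 (hb ((w 2 + 1) / 2) 1)
        rw [e, abs_le] at b1
        show 0 ≤ u (Y w) 1 - γ.extend ((w 2 + 1) / 2) 1
        linarith [b1.1, this.2]
      · show 0 ≤ γ.extend ((w 2 + 1) / 2) 2 - u (Y w) 2
        rw [show w 2 = 1 from hi, show ((1 : ℝ) + 1) / 2 = 1 by norm_num, γ.extend_one]
        linarith [hz' (Y w)]) (by
      intro w _ i hi
      obtain ⟨b0, b1, -⟩ := hC (Y w)
      fin_cases i
      · have e : Y w 0 = -R := by show R * w 0 = -R; rw [show w 0 = -1 from hi]; ring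
        have := abs_le.1 (hb ((w 2 + 1) / 2) 0)
        rw [e, abs_le] at b0
        show u (Y w) 0 - γ.extend ((w 2 + 1) / 2) 0 ≤ 0
        linarith [b0.2, this.1]
      · have e : Y w 1 = -R := by show R * w 1 = -R; rw [show w 1 = -1 from hi]; ring
        have := abs_le.1 (hb ((w 2 + 1) / 2) 1)
        rw [e, abs_le] at b1
        show u (Y w) 1 - γ.extend ((w 2 + 1) / 2) 1 ≤ 0
        linarith [b1.2, this.1]
      · show γ.extend ((w 2 + 1) / 2) 2 - u (Y w) 2 ≤ 0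
        rw [show w 2 = -1 from hi, show ((-1 : ℝ) + 1) / 2 = 0 by norm_num, γ.extend_zero]
        linarith [hz (Y w)])
  have e : g w = u (Y w) := by
    funext i
    fin_cases i
    · have : u (Y w) 0 - g w 0 = 0 := hw 0
      show g w 0 = u (Y w) 0
      linarith
    · have : u (Y w) 1 - g w 1 = 0 := hw 1
      show g w 1 = u (Y w) 1
      linarith
    · have : g w 2 - u (Y w) 2 = 0 := hw 2
      show g w 2 = u (Y w) 2
      linarith
  have : g w ∈ range γ := by rw [← γ.extend_range]; exact mem_range_self _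
  obtain ⟨t, ht⟩ := this
  exact hγ t (by rw [ht, e]; exact mem_range_self _)

omit u in
/-- an open piece of the complement is seen from every point of `S` -/
lemma all_closure {S O : Set V} (hS : IsPreconnected S) (hne : S.Nonempty) (hO : IsOpen O)
    (hOne : O.Nonempty) (hd : O ⊆ Sᶜ) (hO' : IsOpen (Sᶜ \ O)) (ht : ∀ x ∈ S, Two S x) :
    S ⊆ closure O := by
  have h1 : (S ∩ closure O).Nonempty := by
    by_contra hem
    have hcl : IsClosed O := by
      rw [← closure_subset_iff_isClosed]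
      intro x hx
      have hxS : x ∉ S := fun h => hem ⟨x, h, hx⟩
      by_contra hxO
      obtain ⟨y, hy1, hy2⟩ := mem_closure_iff.1 hx _ hO' ⟨hxS, hxO⟩
      exact hy1.2 hy2
    rcases isClopen_iff.1 ⟨hcl, hO⟩ with h | h
    · exact hOne.ne_empty h
    · obtain ⟨x, hx⟩ := hne
      exact hd (h ▸ mem_univ x) hx
  have key : ∀ x ∈ S ∩ closure O, ∃ B ∈ 𝓝 x, B ∩ S ⊆ closure O := by
    rintro x ⟨hx, hxc⟩
    obtain ⟨B, hB, A, A', hA, hA', hBS, hcl⟩ := ht x hx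
    refine ⟨B, hB, ?_⟩
    obtain ⟨p, hp1, hp2⟩ := mem_closure_iff_nhds.1 hxc B hB
    have hp : p ∈ A ∪ A' := hBS ▸ ⟨hp1, hd hp2⟩
    have sub : ∀ A₀ : Set V, IsPreconnected A₀ → A₀ ⊆ A ∪ A' → p ∈ A₀ → A₀ ⊆ O := by
      intro A₀ h0 hs hp0
      refine (h0.subset_left_of_subset_union hO hO' (disjoint_left.2 fun y a b => b.2 a) ?_
        ⟨p, hp0, hp2⟩)
      intro y hy
      have : y ∈ B \ S := hBS ▸ hs hy
      by_cases hyO : y ∈ O
      · exact Or.inl hyO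
      · exact Or.inr ⟨this.2, hyO⟩
    rcases hp with hp | hp
    · exact fun z hz => closure_mono (sub A hA subset_union_left hp) (hcl z hz).1
    · exact fun z hz => closure_mono (sub A' hA' subset_union_right hp) (hcl z hz).2
  let U : Set V := interior {x | x ∈ S → x ∈ closure O}
  have hU : S ∩ closure O ⊆ U := by
    intro x hx
    obtain ⟨B, hB, hs⟩ := key x hx
    exact mem_interior_iff_mem_nhds.2 (Filter.mem_of_superset hB fun y hy hyS => hs ⟨hy, hyS⟩)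
  by_contra hn
  obtain ⟨q, hq, hqn⟩ := not_subset.1 hn
  obtain ⟨x, hx⟩ := h1
  obtain ⟨w, hw1, hw2, hw3⟩ := hS U (closure O)ᶜ isOpen_interior isClosed_closure.isOpen_compl
    (fun y hy => by
      by_cases hc : y ∈ closure O
      · exact Or.inl (hU ⟨hy, hc⟩)
      · exact Or.inr hc) ⟨x, hx.1, hU hx⟩ ⟨q, hq, hqn⟩
  exact hw3 (interior_subset hw2 hw1)

/-- **the two sides** -/
theorem cover (h : Pln u) (ht : ∀ y, Two (range u) (u y)) :
    Dn u ∪ Up u = (range u)ᶜ ∧ range u ⊆ closure (Dn u) ∧ range u ⊆ closure (Up u) := by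
  have hS : IsPreconnected (range u) := isPreconnected_range h.cont
  have hne : (range u).Nonempty := range_nonempty u
  have ht' : ∀ x ∈ range u, Two (range u) x := by rintro _ ⟨y, rfl⟩; exact ht y
  obtain ⟨zl, hzl⟩ := h.exists_low
  obtain ⟨zh, hzh⟩ := h.exists_high
  have oD := h.isOpen_Dn
  have oU : IsOpen ((range u)ᶜ \ Dn u) := isOpen_not_joined h.isClosed _
  have c1 : range u ⊆ closure (Dn u) := all_closure hS hne oD ⟨zl, low hzl⟩ Dn_sub oU ht'
  have c2 : range u ⊆ closure (Up u) := all_closure hS hne h.isOpen_Up ⟨zh, high hzh⟩ Up_sub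
    (isOpen_not_joined h.isClosed _) ht'
  refine ⟨?_, c1, c2⟩
  have hUs : Up u ⊆ (range u)ᶜ \ Dn u := fun x hx =>
    ⟨Up_sub hx, fun hd => disjoint_left.1 h.disjoint hd hx⟩
  have hp : IsPreconnected ((range u)ᶜ \ Dn u) := by
    refine side_conn hS hne oU (disjoint_left.2 fun x a b => a.1 b) ?_ ?_
    · convert oD using 1
      ext x; simp only [mem_diff, mem_compl_iff]
      have := @Dn_sub u x
      simp only [mem_compl_iff] at this
      tauto
    · intro x hx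
      obtain ⟨B, hB, A, A', hA, hA', hBS, hcl⟩ := ht' x hx
      have dich : ∀ A₀ : Set V, IsPreconnected A₀ → A₀ ⊆ A ∪ A' →
          A₀ ⊆ Dn u ∨ A₀ ⊆ (range u)ᶜ \ Dn u := by
        intro A₀ h0 hs
        refine h0.subset_or_subset oD oU (disjoint_left.2 fun y a b => b.2 a) fun y hy => ?_
        have : y ∈ B \ range u := hBS ▸ hs hy
        by_cases hyO : y ∈ Dn u
        · exact Or.inl hyO
        · exact Or.inr ⟨this.2, hyO⟩
      obtain ⟨p, hp1, hp2⟩ := mem_closure_iff_nhds.1 (c1 hx) B hB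
      obtain ⟨q, hq1, hq2⟩ := mem_closure_iff_nhds.1 (c2 hx) B hB
      have hp : p ∈ A ∪ A' := hBS ▸ ⟨hp1, Dn_sub hp2⟩
      have hq : q ∈ A ∪ A' := hBS ▸ ⟨hq1, Up_sub hq2⟩
      have hxB := mem_of_mem_nhds hB
      have fin : ∀ A₀ A₁ : Set V, A₀ ∪ A₁ = A ∪ A' → A₀ ⊆ Dn u → A₁ ⊆ (range u)ᶜ \ Dn u →
          B ∩ ((range u)ᶜ \ Dn u) = A₁ := by
        intro A₀ A₁ e h0 h1
        ext y; constructor
        · rintro ⟨a, b, c⟩
          have : y ∈ A₀ ∪ A₁ := e ▸ hBS ▸ ⟨a, b⟩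
          exact this.resolve_left fun h => c (h0 h)
        · intro hy
          have : y ∈ B \ range u := hBS ▸ e ▸ Or.inr hy
          exact ⟨this.1, h1 hy⟩
      refine ⟨B, hB, ?_⟩
      rcases dich A hA subset_union_left with d1 | d1 <;>
        rcases dich A' hA' subset_union_right with d2 | d2
      · exact ((hUs hq2).2 (hq.elim (fun h => d1 h) fun h => d2 h)).elim
      · rw [fin A A' rfl d1 d2]; exact ⟨hA', (hcl x ⟨hxB, hx⟩).2⟩
      · rw [fin A' A (union_comm _ _) d2 d1]; exact ⟨hA, (hcl x ⟨hxB, hx⟩).1⟩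
      · exact (hp.elim (fun h => (d1 h).2 hp2) fun h => (d2 h).2 hp2).elim
  have hpc : IsPathConnected ((range u)ᶜ \ Dn u) :=
    oU.isConnected_iff_isPathConnected.1 ⟨⟨zh, hUs (high hzh)⟩, hp⟩
  refine Subset.antisymm (union_subset Dn_sub Up_sub) fun x hx => ?_
  by_cases hd : x ∈ Dn u
  · exact Or.inl hd
  · exact Or.inr (Up_of_joined (high hzh)
      ((hpc.joinedIn x ⟨hx, hd⟩ zh (hUs (high hzh))).mono diff_subset))

lemma isPreconnected_aux {S L : Set V} (hL : Convex ℝ L) (hLS : L ⊆ Sᶜ) :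
    IsPreconnected {x | ∃ z, z ∈ L ∧ JoinedIn Sᶜ x z} := by
  refine isPreconnected_of_forall_pair ?_
  rintro x ⟨z, hz, hj⟩ y ⟨z', hz', hj'⟩
  have hzz : JoinedIn Sᶜ z z' := ((hL.isPathConnected ⟨z, hz⟩).joinedIn z hz z' hz').mono hLS
  refine ⟨pathComponentIn Sᶜ x, fun w hw => ⟨z, hz, (show JoinedIn Sᶜ x w from hw).symm.trans hj⟩,
    mem_pathComponentIn_self hj.source_mem, (hj.trans hzz).trans hj'.symm,
    (isPathConnected_pathComponentIn hj.source_mem).isConnected.isPreconnected⟩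

lemma isPreconnected_Dn : IsPreconnected (Dn u) := by
  refine isPreconnected_aux (L := {z | ∀ y, z 2 < u y 2}) ?_ ?_
  · have : {z : V | ∀ y, z 2 < u y 2} = ⋂ y, {z : V | z 2 < u y 2} := by ext; simp
    rw [this]
    exact convex_iInter fun y => convex_halfSpace_lt (f := fun y : V => y 2)
      ⟨fun _ _ => rfl, fun _ _ => rfl⟩ _
  · rintro z hz ⟨y, rfl⟩; exact lt_irrefl _ (hz y)

lemma isPreconnected_Up : IsPreconnected (Up u) := by
  refine isPreconnected_aux (L := {z | ∀ y, u y 2 < z 2}) ?_ ?_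
  · have : {z : V | ∀ y, u y 2 < z 2} = ⋂ y, {z : V | u y 2 < z 2} := by ext; simp
    rw [this]
    exact convex_iInter fun y => convex_halfSpace_gt (f := fun y : V => y 2)
      ⟨fun _ _ => rfl, fun _ _ => rfl⟩ _
  · rintro z hz ⟨y, rfl⟩; exact lt_irrefl _ (hz y)

end Pln

/-- a plane with two sides -/
structure Pln2 (u : P → V) : Prop extends Pln u where
  two : ∀ y, Two (range u) (u y)

namespace Pln2

variable {u u' : P → V}

lemma tri (h : Pln2 u) (x : V) : x ∈ Dn u ∨ x ∈ range u ∨ x ∈ Up u := by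
  by_cases hx : x ∈ range u
  · exact Or.inr (Or.inl hx)
  · have : x ∈ Dn u ∪ Up u := (h.toPln.cover h.two).1 ▸ hx
    exact this.elim Or.inl fun h => Or.inr (Or.inr h)

lemma compl_Dn (h : Pln2 u) : (Dn u)ᶜ = Up u ∪ range u := by
  ext x; constructor
  · intro hx
    rcases h.tri x with a | a | a
    exacts [(hx a).elim, Or.inr a, Or.inl a]
  · rintro (a | a) b
    exacts [disjoint_left.1 h.toPln.disjoint b a, Pln.Dn_sub b a]

lemma compl_Up (h : Pln2 u) : (Up u)ᶜ = Dn u ∪ range u := by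
  ext x; constructor
  · intro hx
    rcases h.tri x with a | a | a
    exacts [Or.inl a, Or.inr a, (hx a).elim]
  · rintro (a | a) b
    exacts [disjoint_left.1 h.toPln.disjoint a b, Pln.Up_sub b a]

lemma isClosed_Up (h : Pln2 u) : IsClosed (Up u ∪ range u) :=
  h.compl_Dn ▸ h.toPln.isOpen_Dn.isClosed_compl

lemma isClosed_Dn (h : Pln2 u) : IsClosed (Dn u ∪ range u) :=
  h.compl_Up ▸ h.toPln.isOpen_Up.isClosed_compl

lemma cl_Dn (h : Pln2 u) (y : P) : u y ∈ closure (Dn u) :=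
  (h.toPln.cover h.two).2.1 (mem_range_self y)

lemma cl_Up (h : Pln2 u) (y : P) : u y ∈ closure (Up u) :=
  (h.toPln.cover h.two).2.2 (mem_range_self y)

/-- a connected set missing the plane lies on one side -/
lemma sub_Dn (h : Pln2 u) {A : Set V} (hA : IsPreconnected A) (hd : A ⊆ (range u)ᶜ) {x : V}
    (hx : x ∈ A) (hx' : x ∈ Dn u) : A ⊆ Dn u :=
  hA.subset_left_of_subset_union h.toPln.isOpen_Dn h.toPln.isOpen_Up h.toPln.disjoint
    ((h.toPln.cover h.two).1 ▸ hd) ⟨x, hx, hx'⟩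

lemma sub_Up (h : Pln2 u) {A : Set V} (hA : IsPreconnected A) (hd : A ⊆ (range u)ᶜ) {x : V}
    (hx : x ∈ A) (hx' : x ∈ Up u) : A ⊆ Up u :=
  hA.subset_right_of_subset_union h.toPln.isOpen_Dn h.toPln.isOpen_Up h.toPln.disjoint
    ((h.toPln.cover h.two).1 ▸ hd) ⟨x, hx, hx'⟩

/-- order of two planes -/
lemma Dn_mono (h : Pln2 u) (h' : Pln2 u') (hle : range u' ⊆ Up u ∪ range u) : Dn u ⊆ Dn u' := by
  obtain ⟨z, hz⟩ := h.toPln.exists_low
  obtain ⟨z', hz'⟩ := h'.toPln.exists_low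
  refine h'.sub_Dn Pln.isPreconnected_Dn (fun x hx hr => ?_) (x := lv (min (z 2) (z' 2)) 0)
    (Pln.low fun y => lt_of_le_of_lt (min_le_left _ _) (hz y))
    (Pln.low fun y => lt_of_le_of_lt (min_le_right _ _) (hz' y))
  have : x ∈ (Dn u)ᶜ := h.compl_Dn ▸ hle hr
  exact this hx

lemma Up_mono (h : Pln2 u) (h' : Pln2 u') (hle : range u ⊆ Dn u' ∪ range u') : Up u' ⊆ Up u := by
  obtain ⟨z, hz⟩ := h.toPln.exists_high
  obtain ⟨z', hz'⟩ := h'.toPln.exists_high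
  refine h.sub_Up Pln.isPreconnected_Up (fun x hx hr => ?_) (x := lv (max (z 2) (z' 2)) 0)
    (Pln.high fun y => lt_of_lt_of_le (hz' y) (le_max_right _ _))
    (Pln.high fun y => lt_of_lt_of_le (hz y) (le_max_left _ _))
  have : x ∈ (Up u')ᶜ := h'.compl_Up ▸ hle hr
  exact this hx

omit u' in
lemma retr_aux (h : Pln2 u) {A B : Set V} (hA : IsClosed A) (hB : IsClosed B)
    (hc : A ∪ B = univ) (hi : A ∩ B ⊆ range u) :
    ∃ r : V → V, Continuous r ∧ (∀ x ∈ A, r x = x) ∧ ∀ x ∈ B, r x ∈ range u := by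
  classical
  obtain ⟨g, hg⟩ := (ContinuousMap.id P).exists_extension' h.toPln.isClosedEmbedding
  have hg' : ∀ x ∈ range u, u (g x) = x := by
    rintro _ ⟨y, rfl⟩
    exact congrArg u (congrFun hg y)
  refine ⟨fun x => if x ∈ A then x else u (g x), ?_, fun x hx => if_pos hx, fun x hx => ?_⟩
  · rw [← continuousOn_univ, ← hc]
    refine ContinuousOn.union_of_isClosed ?_ ?_ hA hB
    · exact continuousOn_id.congr fun x hx => if_pos hx
    · refine (h.cont.comp g.continuous).continuousOn.congr fun x hx => ?_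
      by_cases hxA : x ∈ A
      · simp only [if_pos hxA]; exact (hg' x (hi ⟨hxA, hx⟩)).symm
      · simp only [if_neg hxA]; rfl
  · by_cases hxA : x ∈ A
    · simp only [if_pos hxA]; exact hi ⟨hxA, hx⟩
    · simp only [if_neg hxA]; exact mem_range_self _

lemma sides_union (h : Pln2 u) : (Up u ∪ range u) ∪ (Dn u ∪ range u) = univ := by
  refine eq_univ_of_forall fun x => ?_
  rcases h.tri x with a | a | a
  exacts [Or.inr (Or.inl a), Or.inl (Or.inr a), Or.inl (Or.inl a)]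

lemma sides_inter (h : Pln2 u) : (Up u ∪ range u) ∩ (Dn u ∪ range u) ⊆ range u := by
  rintro x ⟨a | a, b | b⟩
  exacts [(disjoint_left.1 h.toPln.disjoint b a).elim, b, a, a]

/-- **retraction onto the closed region between two planes** -/
theorem exists_retr (h : Pln2 u) (h' : Pln2 u') (hle : range u' ⊆ Up u ∪ range u) :
    ∃ r : V → V, Continuous r ∧ (∀ x, r x ∈ (Up u ∪ range u) ∩ (Dn u' ∪ range u')) ∧
      ∀ x ∈ (Up u ∪ range u) ∩ (Dn u' ∪ range u'), r x = x := by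
  obtain ⟨r, c, r1, r2⟩ := h.retr_aux h.isClosed_Up h.isClosed_Dn h.sides_union h.sides_inter
  obtain ⟨s, c', s1, s2⟩ := h'.retr_aux h'.isClosed_Dn h'.isClosed_Up
    (by rw [union_comm]; exact h'.sides_union) (by rw [inter_comm]; exact h'.sides_inter)
  refine ⟨fun x => s (r x), c'.comp c, fun x => ?_, fun x hx => by
    show s (r x) = x
    rw [r1 x hx.1, s1 x hx.2]⟩
  show s (r x) ∈ _
  have h1 : r x ∈ Up u ∪ range u := by
    rcases h.tri x with a | a | a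
    · exact Or.inr (r2 x (Or.inl a))
    · exact Or.inr (r2 x (Or.inr a))
    · rw [r1 x (Or.inl a)]; exact Or.inl a
  rcases h'.tri (r x) with a | a | a
  · rw [s1 _ (Or.inl a)]; exact ⟨h1, Or.inl a⟩
  · rw [s1 _ (Or.inr a)]; exact ⟨h1, Or.inr a⟩
  · exact ⟨hle (s2 _ (Or.inl a)), Or.inr (s2 _ (Or.inl a))⟩

end Pln2

end Crest.Agent.X212.Prd34
end

-- ▼ part X212/Prd34/Rng

/-!
# X212 / T layer: rungs separate, flat tori, solid tori read on the universal cover (helper34)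
-/

set_option autoImplicit false

open Set Metric Topology

namespace Crest.Agent.X212.Prd34

open Crest.Agent.R096.Ce_537 Crest.Agent.X212.Lad50
open Crest.Agent.X212.Sol49 (Tor)

/-- arbitrarily small two-sided neighbourhoods -/
def Tw (S : Set V) (x : V) : Prop := ∀ N ∈ 𝓝 x, ∃ B ∈ 𝓝 x, B ⊆ N ∧ ∃ A A' : Set V,
  IsPreconnected A ∧ IsPreconnected A' ∧ B \ S = A ∪ A' ∧
    ∀ z ∈ B ∩ S, z ∈ closure A ∧ z ∈ closure A'

lemma Tw.two {S : Set V} {x : V} (h : Tw S x) : Two S x := by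
  obtain ⟨B, hB, -, h⟩ := h univ Filter.univ_mem
  exact ⟨B, hB, h⟩

lemma FlatAt.tw {S : Set V} {x : V} (h : FlatAt S x) : Tw S x := by
  obtain ⟨B, c, rfl, hB, h2⟩ := h
  intro N hN
  obtain ⟨B', e', h0, hB', hsub, hA⟩ := shrink c hB hN 1 (by simp)
  refine ⟨B', hB', fun z hz => (hsub hz).2, chart_two e' ?_⟩
  rw [← hA fl fl (dg_fl (by simp)), ← h2]
  ext y
  exact ⟨fun ⟨a, b⟩ => ⟨a, (hsub a).1, b⟩, fun ⟨a, _, b⟩ => ⟨a, b⟩⟩

lemma Tw.pull {H : V → V} (hc : Continuous H) (ho : IsOpenMap H) {N S S' : Set V} (hN : IsOpen N)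
    (hi : InjOn H N) {x : V} (hx : x ∈ N) (h : Tw S (H x)) (e : ∀ z ∈ N, z ∈ S' ↔ H z ∈ S) :
    Tw S' x := by
  intro M hM
  obtain ⟨M', hM', oM', xM'⟩ := _root_.mem_nhds_iff.1 (Filter.inter_mem hM (hN.mem_nhds hx))
  have sN : M' ⊆ N := fun z hz => (hM' hz).2
  obtain ⟨B, hB, hs, A, A', hA, hA', hBS, hcl⟩ := h (H '' M') ((ho _ oM').mem_nhds ⟨x, xM', rfl⟩)
  have emb : IsOpenEmbedding (M'.domRestrict H) :=
    IsOpenEmbedding.of_continuous_injective_isOpenMap (hc.comp continuous_subtype_val)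
      (injOn_iff_injective.1 (hi.mono sN)) (ho.restrict oM')
  have pre : ∀ C : Set V, IsPreconnected C → C ⊆ B → IsPreconnected (M' ∩ H ⁻¹' C) := by
    intro C hC hCB
    have h1 : IsPreconnected (M'.domRestrict H ⁻¹' C) := by
      rw [← emb.isInducing.isPreconnected_image, image_preimage_eq_of_subset]
      · exact hC
      · rw [range_restrict]; exact hCB.trans hs
    have h2 := h1.image _ continuous_subtype_val.continuousOn
    convert h2 using 1
    ext z; simp [and_comm]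
  have clo : ∀ C : Set V, ∀ z ∈ M', C ⊆ B → H z ∈ closure C → z ∈ closure (M' ∩ H ⁻¹' C) := by
    intro C z hz hCB hzc
    rw [_root_.mem_closure_iff] at hzc ⊢
    intro U hU hzU
    obtain ⟨_, ⟨w, hw, rfl⟩, hw'⟩ := hzc _ (ho _ (hU.inter oM')) ⟨z, ⟨hzU, hz⟩, rfl⟩
    exact ⟨w, hw.1, hw.2, hw'⟩
  have sA : A ⊆ B := fun z hz => (hBS.symm ▸ Or.inl hz : z ∈ B \ S).1
  have sA' : A' ⊆ B := fun z hz => (hBS.symm ▸ Or.inr hz : z ∈ B \ S).1
  refine ⟨M' ∩ H ⁻¹' B, Filter.inter_mem (oM'.mem_nhds xM') (hc.continuousAt hB),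
    fun z hz => (hM' hz.1).1, M' ∩ H ⁻¹' A, M' ∩ H ⁻¹' A', pre A hA sA, pre A' hA' sA', ?_, ?_⟩
  · rw [← inter_union_distrib_left, ← preimage_union, ← hBS]
    ext z
    exact ⟨fun ⟨⟨a, b⟩, c⟩ => ⟨a, b, fun d => c ((e z (sN a)).2 d)⟩,
      fun ⟨a, b, c⟩ => ⟨⟨a, b⟩, fun d => c ((e z (sN a)).1 d)⟩⟩
  · rintro z ⟨⟨a, b⟩, c⟩
    have := hcl (H z) ⟨b, (e z (sN a)).1 c⟩
    exact ⟨clo A z a sA this.1, clo A' z a sA' this.2⟩

variable {K J : Finset (Fin 3)} {H : V → V}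

lemma Per.injOn (hH : Per J H) (x : V) : InjOn H (ball x (1 / 2)) := by
  intro a ha b hb e
  have hl := (hH.fib a b).1 e
  have hd : ‖a - b‖ < 1 := by
    rw [← dist_eq_norm]
    linarith [dist_triangle_right a b x, mem_ball.1 ha, mem_ball.1 hb]
  funext i
  by_cases hi : i ∈ J
  · obtain ⟨n, hn⟩ := (hl i).1 hi
    have h1 := (norm_le_pi_norm (a - b) i).trans_lt hd
    rw [hn, Real.norm_eq_abs] at h1
    have h2 : |n| < 1 := by exact_mod_cast h1
    rw [Int.abs_lt_one_iff.1 h2] at hn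
    exact sub_eq_zero.1 (by simpa using hn)
  · exact sub_eq_zero.1 ((hl i).2 hi)

lemma Per.add (hH : Per J H) (x : V) {l : V} (hl : l ∈ lat J) : H (x + l) = H x :=
  (hH.fib _ _).2 (by simpa using hl)

/-- a small PL disc is flat at its centre -/
lemma flat_disc (hF : FlatStmt) {f : P → V} {y : P} {N : Set P} (hN : N ∈ 𝓝 y) (hp : PLOn f N)
    (hi : InjOn f N) : ∃ D ∈ 𝓝 y, D ⊆ N ∧ FlatAt (f '' D) (f y) := by
  obtain ⟨r, hr, hs⟩ := nhds_basis_closedBall.mem_iff.1 hN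
  let φ : P → P := fun w => y + r • w
  have hφ : φ '' cube 2 = closedBall y r := by
    ext z; constructor
    · rintro ⟨w, hw, rfl⟩
      have : ‖w‖ ≤ 1 := mem_closedBall_zero_iff.1 hw
      rw [mem_closedBall_iff_norm]
      simp only [φ, add_sub_cancel_left, norm_smul, Real.norm_eq_abs, abs_of_pos hr]
      nlinarith
    · intro hz
      refine ⟨r⁻¹ • (z - y), ?_, by simp [φ, smul_smul, hr.ne']⟩
      rw [mem_closedBall_iff_norm] at hz
      simp only [cube, mem_closedBall_zero_iff, norm_smul, Real.norm_eq_abs, abs_inv, abs_of_pos hr]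
      rw [inv_mul_le_iff₀ hr]; linarith
  have iφ : Function.Injective φ := fun a b e => by
    simpa [φ, hr.ne'] using e
  have pφ : PLOn φ (cube 2) := pl_add (plOn_const _ _) (pl_smul r (plOn_id _))
  have b1 := (R096.Cx_609.isBall_of_injOn pφ iφ.injOn).image_injOn (hp.mono (hφ ▸ hs))
    (hi.mono (hφ ▸ hs))
  rw [hφ] at b1
  refine ⟨_, closedBall_mem_nhds y hr, hs, hF _ _ _ _ b1 ⟨y, mem_closedBall_self hr.le, rfl⟩ ?_
    Subset.rfl self_mem_nhdsWithin⟩
  rintro ⟨_, ⟨w, hw, rfl⟩, e⟩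
  have h1 := hi (hs (hφ ▸ ⟨w, sph_subset_cube hw, rfl⟩)) (mem_of_mem_nhds hN) e
  have h2 : w = 0 := iφ (by simpa [φ] using h1)
  rw [h2] at hw
  simp [sph] at hw

/-- local picture of a plane whose image is PL -/
lemma Pln.flat_loc (hF : FlatStmt) (hH : Per J H) {u : P → V} (h : Pln u)
    (hp : LocPL (fun y => H (u y)) univ) (y : P) :
    ∃ N S : Set V, IsOpen N ∧ u y ∈ N ∧ InjOn H N ∧ FlatAt S (H (u y)) ∧
      ∀ z ∈ N, z ∈ range u ↔ H z ∈ S := by
  obtain ⟨r, hr, h1⟩ := hp y trivial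
  have hN : ball y r ∩ u ⁻¹' ball (u y) (1 / 2) ∈ 𝓝 y :=
    Filter.inter_mem (ball_mem_nhds y hr) (h.cont.continuousAt (ball_mem_nhds _ (by norm_num)))
  obtain ⟨D, hD, hs, hf⟩ := flat_disc hF hN (h1.mono inter_subset_left)
    fun a ha b hb e => h.inj (hH.injOn (u y) ha.2 hb.2 e)
  refine ⟨ball (u y) (1 / 2) ∩ (u '' (interior D)ᶜ)ᶜ, _, isOpen_ball.inter
    (h.isClosedEmbedding.isClosedMap _ isOpen_interior.isClosed_compl).isOpen_compl,
    ⟨mem_ball_self (by norm_num), ?_⟩, (hH.injOn _).mono inter_subset_left, hf, ?_⟩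
  · rintro ⟨w, hw, e⟩
    exact hw (h.inj e ▸ mem_interior_iff_mem_nhds.2 hD)
  · rintro z ⟨a, b⟩
    constructor
    · rintro ⟨w, rfl⟩
      refine ⟨w, interior_subset ?_, rfl⟩
      by_contra hw
      exact b ⟨w, hw, rfl⟩
    · rintro ⟨w, hw, e⟩
      exact ⟨w, hH.injOn (u y) (hs hw).2 a e⟩

/-- a plane with arbitrarily small two-sided neighbourhoods -/
structure Pln3 (u : P → V) : Prop extends Pln2 u where
  tw : ∀ y, Tw (range u) (u y)

theorem Pln.pln3 (hF : FlatStmt) (hH : Per J H) {u : P → V} (h : Pln u)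
    (hp : LocPL (fun y => H (u y)) univ) : Pln3 u := by
  have : ∀ y, Tw (range u) (u y) := fun y => by
    obtain ⟨N, S, a, b, c, d, e⟩ := h.flat_loc hF hH hp y
    exact d.tw.pull hH.cont hH.opn a c b e
  exact ⟨⟨h, fun y => (this y).two⟩, this⟩

/-- flatness downstairs -/
theorem Pln.flat (hF : FlatStmt) (hH : Per J H) {u : P → V} (h : Pln u)
    (hp : LocPL (fun y => H (u y)) univ) {Z : Set V} (hZ : ∀ x, H x ∈ H '' Z → x ∈ Z) (y : P)
    {M : Set V} (hM : M ∈ 𝓝 (u y)) (e : ∀ z ∈ M, z ∈ range u ↔ z ∈ Z) :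
    FlatAt (H '' Z) (H (u y)) := by
  obtain ⟨N, S, a, b, c, d, e'⟩ := h.flat_loc hF hH hp y
  refine d.congr (hH.opn.image_mem_nhds (Filter.inter_mem hM (a.mem_nhds b))) ?_
  ext z; constructor
  · rintro ⟨⟨w, hw, rfl⟩, h2⟩
    exact ⟨⟨w, hw, rfl⟩, w, (e w hw.1).1 ((e' w hw.2).2 h2), rfl⟩
  · rintro ⟨⟨w, hw, rfl⟩, h2⟩
    exact ⟨⟨w, hw, rfl⟩, (e' w hw.2).1 ((e w hw.1).2 (hZ w h2))⟩

/-- reduction modulo the lattice -/
lemma exists_red (J : Finset (Fin 3)) (x : V) : ∃ l ∈ lat J, ∀ i ∈ J, 0 ≤ x i - l i ∧ x i - l i < 1 := by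
  classical
  refine ⟨fun i => if i ∈ J then (⌊x i⌋ : ℝ) else 0, fun i => ⟨fun hi => ⟨⌊x i⌋, if_pos hi⟩,
    fun hi => if_neg hi⟩, fun i hi => ?_⟩
  simp only [if_pos hi]
  exact ⟨by linarith [Int.floor_le (x i)], by linarith [Int.lt_floor_add_one (x i)]⟩

lemma two_not_mem (hKJ : K ∪ J = {0, 1}) : (2 : Fin 3) ∉ K ∧ (2 : Fin 3) ∉ J := by
  constructor <;> intro h
  · have : (2 : Fin 3) ∈ K ∪ J := Finset.mem_union_left _ h
    rw [hKJ] at this; exact absurd this (by decide)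
  · have : (2 : Fin 3) ∈ K ∪ J := Finset.mem_union_right _ h
    rw [hKJ] at this; exact absurd this (by decide)

variable {c δ : ℝ} {u u' : P → V}

theorem Rung.pln (hKJ : K ∪ J = {0, 1}) (hu : Rung K J H c δ u) : Pln u := by
  refine ⟨hu.cont, hu.inj, ?_⟩
  have h2 := (two_not_mem hKJ).2
  have cf : Continuous fun y => u y - lv 0 y := hu.cont.sub (continuous_lv 0)
  obtain ⟨C, hC⟩ := (isCompact_closedBall (0 : P) 1).exists_bound_of_continuousOn cf.continuousOn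
  refine ⟨max C |c|, fun y => ?_⟩
  obtain ⟨l, hl, hr⟩ := exists_red J (lv 0 y)
  have el : lv 0 (pr l) = l := by rw [← (hl 2).2 h2, lv_pr]
  have e1 : u y - lv 0 y = u (y - pr l) - lv 0 (y - pr l) := by
    have := hu.eqv (y - pr l) (pr l) (by rwa [el])
    rw [sub_add_cancel] at this
    rw [this]
    funext i; fin_cases i <;> simp <;> ring
  rw [e1]
  by_cases ho : lv c (y - pr l) ∈ out K
  · rw [hu.bd _ ho]
    refine le_trans ?_ (le_max_right _ _)
    rw [pi_norm_le_iff_of_nonneg (abs_nonneg c)]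
    intro i; fin_cases i <;> simp
  · refine (hC _ ?_).trans (le_max_left _ _)
    have hs := mem_slab_of_not_mem ho
    have key : ∀ i : Fin 3, i ∈ K ∪ J → |lv 0 y i - l i| ≤ 1 ∨ |lv c (y - pr l) i| ≤ 1 := by
      intro i hi
      rcases Finset.mem_union.1 hi with h | h
      · exact Or.inr (hs i h)
      · exact Or.inl (abs_le.2 ⟨by linarith [(hr i h).1], (hr i h).2.le⟩)
    rw [mem_closedBall_zero_iff, pi_norm_le_iff_of_nonneg zero_le_one]
    intro i
    fin_cases i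
    · simpa using key 0 (by rw [hKJ]; decide)
    · simpa using key 1 (by rw [hKJ]; decide)

theorem Rung.pln3 (hF : FlatStmt) (hKJ : K ∪ J = {0, 1}) (hH : Per J H) (hu : Rung K J H c δ u) :
    Pln3 u := (hu.pln hKJ).pln3 hF hH hu.pl

lemma Pln2.sepH (h : Pln2 u) : SepH u :=
  ⟨h.toPln.isOpen_Up, h.toPln.isOpen_Dn, h.toPln.disjoint.symm, fun x => by
    rcases h.tri x with a | a | a
    exacts [Or.inr (Or.inl a), Or.inr (Or.inr a), Or.inl a]⟩

/-- **rungs separate** -/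
theorem sep_of (hF : FlatStmt) : SepStmt := fun _ _ _ _ _ _ hKJ _ hH hu =>
  (hu.pln3 hF hKJ hH).toPln2.sepH

/-! ### two planes in order -/

lemma Pln2.le_Dn {p q : P → V} (hp : Pln2 p) (hq : Pln2 q) (h : Dn p ⊆ Dn q) :
    range p ⊆ Dn q ∪ range q := by
  rintro _ ⟨y, rfl⟩
  exact hq.isClosed_Dn.closure_subset (closure_mono (h.trans subset_union_left) (hp.cl_Dn y))

lemma Pln2.le_Up {p q : P → V} (hp : Pln2 p) (hq : Pln2 q) (h : Up q ⊆ Up p) :
    range q ⊆ Up p ∪ range p := by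
  rintro _ ⟨y, rfl⟩
  exact hp.isClosed_Up.closure_subset (closure_mono (h.trans subset_union_left) (hq.cl_Up y))

/-- where two ordered planes coincide there is nothing between them -/
theorem Pln3.isClosed_between {p q : P → V} (hp : Pln3 p) (hq : Pln2 q) (h : Dn p ⊆ Dn q)
    {S : Set V} (hS : IsClosed S) (e : ∀ x, x ∉ S → (x ∈ range p ↔ x ∈ range q)) :
    IsClosed (Up p ∩ Dn q ∪ S) := by
  rw [← closure_subset_iff_isClosed, closure_union, hS.closure_eq]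
  refine union_subset (fun x hx => ?_) subset_union_right
  by_cases hxS : x ∈ S
  · exact Or.inr hxS
  have h1 : x ∈ Up p ∪ range p := hp.toPln2.isClosed_Up.closure_subset
    (closure_mono (inter_subset_left.trans subset_union_left) hx)
  have h2 : x ∈ Dn q ∪ range q := hq.isClosed_Dn.closure_subset
    (closure_mono (inter_subset_right.trans subset_union_left) hx)
  by_cases hxp : x ∈ range p
  · exfalso
    obtain ⟨y', hy'⟩ := (e x hxS).1 hxp
    obtain ⟨y, rfl⟩ := hxp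
    obtain ⟨B, hB, hs, A, A', hA, hA', hBS, -⟩ := hp.tw y _ (hS.isOpen_compl.mem_nhds hxS)
    obtain ⟨a, a1, a2⟩ := mem_closure_iff_nhds.1 (hy' ▸ hq.cl_Up y') B hB
    obtain ⟨b, b1, b2⟩ := mem_closure_iff_nhds.1 (hp.toPln2.cl_Dn y) B hB
    obtain ⟨d, d1, d2⟩ := mem_closure_iff_nhds.1 hx B hB
    have ha : a ∈ A ∪ A' := hBS ▸ ⟨a1, fun h => Pln.Up_sub a2 ((e a (hs a1)).1 h)⟩
    have hb : b ∈ A ∪ A' := hBS ▸ ⟨b1, Pln.Dn_sub b2⟩
    have hd : d ∈ A ∪ A' := hBS ▸ ⟨d1, Pln.Up_sub d2.1⟩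
    have key : ∀ C : Set V, IsPreconnected C → C ⊆ A ∪ A' →
        ¬ (a ∈ C ∧ b ∈ C) ∧ ¬ (a ∈ C ∧ d ∈ C) ∧ ¬ (b ∈ C ∧ d ∈ C) := by
      intro C hC hs'
      have s1 : C ⊆ (range p)ᶜ := fun z hz => (hBS.symm ▸ hs' hz : z ∈ B \ range p).2
      have s2 : C ⊆ (range q)ᶜ := fun z hz h' =>
        s1 hz ((e z (hs (hBS.symm ▸ hs' hz : z ∈ B \ range p).1)).2 h')
      exact ⟨fun ⟨i, j⟩ => disjoint_left.1 hq.toPln.disjoint (h b2) (hq.sub_Up hC s2 i a2 j),
        fun ⟨i, j⟩ => disjoint_left.1 hq.toPln.disjoint d2.2 (hq.sub_Up hC s2 i a2 j),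
        fun ⟨i, j⟩ => disjoint_left.1 hp.toPln.disjoint (hp.toPln2.sub_Dn hC s1 i b2 j) d2.1⟩
    have k1 := key A hA subset_union_left
    have k2 := key A' hA' subset_union_right
    simp only [mem_union] at ha hb hd
    tauto
  · exact Or.inl ⟨h1.resolve_right hxp, h2.resolve_right fun h' => hxp ((e x hxS).2 h')⟩

/-- a clopen argument -/
lemma empty_of_closed {O S F : Set V} (hO : IsOpen O) (hc : IsClosed (O ∪ S))
    (hF : IsPreconnected F) (hd : ∀ x ∈ F, x ∉ S) {z : V} (hz : z ∈ F) (hzO : z ∉ O) :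
    ∀ x ∈ F, x ∉ O := by
  intro x hx hxO
  have := hF.subset_left_of_subset_union hO hc.isOpen_compl
    (disjoint_left.2 fun y a b => b (Or.inl a)) (fun y hy => by
      by_cases h : y ∈ O
      · exact Or.inl h
      · exact Or.inr fun h' => h'.elim h (hd y hy)) ⟨x, hx, hxO⟩
  exact hzO (this hz)

/-! ### manifolds -/

/-- a closed set cut out by a connected flat surface is a manifold -/
theorem mf_of_flat {W T : Set V} (hW : IsClosed W) (hne : Wᶜ.Nonempty) (hs : T ⊆ W)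
    (hT : IsPreconnected T) (ho : IsOpen (W \ T)) (hne' : (W \ T).Nonempty)
    (hf : ∀ t ∈ T, FlatAt T t) : Mf W T := by
  refine mf_of hs ho fun x hx => ⟨hf x hx, ⟨univ, Filter.univ_mem, ?_⟩, ?_, ?_⟩
  · rw [← compl_eq_univ_diff]; exact hW.isOpen_compl
  · refine Pln.all_closure hT ⟨x, hx⟩ ho hne' (fun y hy => hy.2) ?_ (fun y hy => (hf y hy).two) hx
    convert hW.isOpen_compl using 1
    ext y; have := @hs y; simp only [mem_diff, mem_compl_iff]; tauto
  · refine Pln.all_closure hT ⟨x, hx⟩ hW.isOpen_compl hne (fun y hy h => hy (hs h)) ?_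
      (fun y hy => (hf y hy).two) hx
    convert ho using 1
    ext y; simp only [mem_diff, mem_compl_iff]; tauto

lemma exists_arc {Δ dΔ : Set P} (h : IsBall 2 Δ dΔ) {y : P} (hy : y ∈ dΔ) :
    ∃ (A B : Set P) (a a' : P), IsBall 1 A {a, a'} ∧ IsCompact B ∧ A ∪ B = dΔ ∧ y ∈ A ∧ y ∉ B ∧
      y ∉ ({a, a'} : Set P) := by
  obtain ⟨a, a', ha, ha', hne, h1, h2⟩ : ∃ a a', a ∈ dΔ ∧ a' ∈ dΔ ∧ a ≠ a' ∧ y ≠ a ∧ y ≠ a' := by
    obtain ⟨e, rfl⟩ := h
    have m : ∀ s t : ℝ, |s| = 1 → |t| = 1 → (![s, t] : P) ∈ sph 2 := fun s t hs ht => by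
      simp only [sph, mem_sphere_zero_iff_norm]; rw [norm_vec2, hs, ht, max_self]
    have m1 := m 1 1 (by simp) (by simp)
    have m2 := m 1 (-1) (by simp) (by simp)
    have m3 := m (-1) 1 (by simp) (by simp)
    have ne : ∀ {p q : P}, p ∈ sph 2 → q ∈ sph 2 → p ≠ q → e.f p ≠ e.f q := fun hp hq h h' =>
      h (e.injOn (sph_subset_cube hp) (sph_subset_cube hq) h')
    have n12 := ne m1 m2 fun h => by have := congrFun h 1; norm_num at this
    have n13 := ne m1 m3 fun h => by have := congrFun h 0; norm_num at this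
    have n23 := ne m2 m3 fun h => by have := congrFun h 0; norm_num at this
    by_cases e1 : y = e.f ![1, 1]
    · exact ⟨_, _, ⟨_, m2, rfl⟩, ⟨_, m3, rfl⟩, n23, e1 ▸ n12, e1 ▸ n13⟩
    by_cases e2 : y = e.f ![1, -1]
    · exact ⟨_, _, ⟨_, m1, rfl⟩, ⟨_, m3, rfl⟩, n13, e1, e2 ▸ n23⟩
    · exact ⟨_, _, ⟨_, m1, rfl⟩, ⟨_, m2, rfl⟩, n12, e1, e2⟩
  obtain ⟨A, B, hp, hu⟩ := R096.Cb_609.two_marks h ha ha' hne
  have hn : y ∉ ({a, a'} : Set P) := by simp [h1, h2]
  rcases (hu.symm ▸ hy : y ∈ A ∪ B) with h3 | h3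
  · exact ⟨A, B, a, a', hp.ball₁, hp.ball₂.isCompact, hu, h3, fun h4 => hn (hp.inter ▸ ⟨h3, h4⟩), hn⟩
  · exact ⟨B, A, a, a', hp.ball₂, hp.ball₁.isCompact, by rw [union_comm, hu], h3,
      fun h4 => hn (hp.inter ▸ ⟨h4, h3⟩), hn⟩

variable {Δ dΔ : Set P} {b : P × ℝ → V}

lemma tor_red (h : Tor Δ dΔ b) (s : ℝ) : b '' (dΔ ×ˢ univ) = b '' (dΔ ×ˢ Icc s (s + 1)) := by
  refine Subset.antisymm ?_ (image_mono (prod_mono Subset.rfl (subset_univ _)))
  rintro _ ⟨⟨y, t⟩, hp, rfl⟩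
  refine ⟨(y, t + (-⌊t - s⌋ : ℤ)), ⟨hp.1, ?_, ?_⟩, h.per hp.1 t _⟩
  · push_cast; linarith [Int.floor_le (t - s)]
  · push_cast; linarith [Int.lt_floor_add_one (t - s)]

lemma tor_compact (h : Tor Δ dΔ b) : IsCompact (b '' (dΔ ×ˢ univ)) := by
  rw [tor_red h 0]
  exact (h.ball.isCompact_bdry.prod isCompact_Icc).image_of_continuousOn (h.plOn _ _).1

/-- **parametrised tori are flat** -/
theorem tor_flat (hF : FlatStmt) (h : Tor Δ dΔ b) :
    ∀ t ∈ b '' (dΔ ×ˢ univ), FlatAt (b '' (dΔ ×ˢ univ)) t := by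
  rintro _ ⟨⟨y, s⟩, hp, rfl⟩
  obtain ⟨A, B, a, a', hA, hB, hu, h1, h2, h3⟩ := exists_arc h.ball hp.1
  have sA : A ⊆ dΔ := hu ▸ subset_union_left
  have sB : B ⊆ dΔ := hu ▸ subset_union_right
  have hI := R096.Cb_609.isBall_segment (a := s - 1 / 4) (b := s + 1 / 4) (by linarith)
  rw [segment_eq_Icc (by linarith)] at hI
  have hi : InjOn b (A ×ˢ Icc (s - 1 / 4) (s + 1 / 4)) := by
    rintro ⟨p, t⟩ hp ⟨p', t'⟩ hp' e
    obtain ⟨e1, e2⟩ := h.eq' (sA hp.1) (sA hp'.1) e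
      (abs_lt.2 ⟨by linarith [hp.2.1, hp'.2.2], by linarith [hp.2.2, hp'.2.1]⟩)
    exact Prod.ext e1 e2
  have b1 := (hA.prod hI).image_injOn ((h.plOn _ _).mono (prod_mono sA Subset.rfl)) hi
  have m0 : ((y, s) : P × ℝ) ∈ A ×ˢ Icc (s - 1 / 4) (s + 1 / 4) := ⟨h1, by linarith, by linarith⟩
  refine hF _ _ _ _ b1 ⟨_, m0, rfl⟩ ?_ (image_mono (prod_mono sA (subset_univ _))) ?_
  · rintro ⟨q, hq, e⟩
    have := hi ((hA.prod hI).subset hq) m0 e
    subst this
    rcases hq with hq | hq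
    · exact h3 hq.1
    · rcases hq.2 with h | h
      · exact absurd h (by show s ≠ s - 1 / 4; linarith)
      · exact absurd h (by show s ≠ s + 1 / 4; linarith)
  · have c1 : IsCompact (b '' (B ×ˢ Icc (s - 1 / 4) (s + 1 / 4))) :=
      (hB.prod isCompact_Icc).image_of_continuousOn ((h.plOn _ _).1.mono (prod_mono sB Subset.rfl))
    have c2 : IsCompact (b '' (dΔ ×ˢ Icc (s + 1 / 4) (s + 3 / 4))) :=
      (h.ball.isCompact_bdry.prod isCompact_Icc).image_of_continuousOn (h.plOn _ _).1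
    refine mem_nhdsWithin.2 ⟨_, (c1.union c2).isClosed.isOpen_compl, ?_, ?_⟩
    · rintro (⟨⟨p, t⟩, hq, e⟩ | ⟨⟨p, t⟩, hq, e⟩)
      · exact h2 ((h.eq (sB hq.1) hp.1 e).1 ▸ hq.1)
      · have := (h.eq' hq.1 hp.1 e (abs_lt.2 ⟨by linarith [hq.2.1], by linarith [hq.2.2]⟩)).2
        linarith [hq.2.1]
    · rw [tor_red h (s - 1 / 4)]
      rintro _ ⟨hn, ⟨p, t⟩, hq, rfl⟩
      by_cases ht : t ≤ s + 1 / 4
      · rcases (hu.symm ▸ hq.1 : p ∈ A ∪ B) with h4 | h4
        · exact ⟨_, ⟨h4, hq.2.1, ht⟩, rfl⟩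
        · exact (hn (Or.inl ⟨_, ⟨h4, hq.2.1, ht⟩, rfl⟩)).elim
      · exact (hn (Or.inr ⟨_, ⟨hq.1, (not_le.1 ht).le, by linarith [hq.2.2]⟩, rfl⟩)).elim

/-- **solid tori on the universal cover** -/
theorem solup (hF : FlatStmt) (hS : SolidStmt) (hH : Per J H) {β : P × ℝ → V}
    (hβ : ContinuousOn β (dΔ ×ˢ univ)) (h : Tor Δ dΔ fun p => H (β p)) {O : Set V} (hO : IsOpen O)
    (hne : O.Nonempty) (hc : IsCompact (H '' (O ∪ β '' (dΔ ×ˢ univ)))) {r : V → V}
    (cr : Continuous r) (r1 : ∀ x, r x ∈ O ∪ β '' (dΔ ×ˢ univ))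
    (r2 : ∀ p ∈ dΔ ×ˢ (univ : Set ℝ), r (β p) = β p) :
    ∃ G : P × ℝ → V, LPL G (Δ ×ˢ univ) ∧ (∀ p ∈ dΔ ×ˢ (univ : Set ℝ), G p = H (β p)) ∧
      (∀ p ∈ Δ ×ˢ (univ : Set ℝ), ∀ p' ∈ Δ ×ˢ (univ : Set ℝ),
        G p = G p' ↔ p.1 = p'.1 ∧ ∃ m : ℤ, p.2 - p'.2 = m) ∧
      G '' (Δ ×ˢ univ) = H '' (O ∪ β '' (dΔ ×ˢ univ)) := by
  set T := (fun p => H (β p)) '' (dΔ ×ˢ univ) with hT
  have e1 : H '' (O ∪ β '' (dΔ ×ˢ univ)) \ T = H '' O \ T := by
    rw [image_union, image_image, union_diff_right]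
  have oO := hH.opn _ hO
  have hM : Mf (H '' (O ∪ β '' (dΔ ×ˢ univ))) T := by
    refine mf_of_flat hc.isClosed (nonempty_compl.2 hc.ne_univ) ?_ h.conn ?_ ?_ (tor_flat hF h)
    · rw [image_union, image_image]; exact subset_union_right
    · rw [e1]; exact oO.sdiff (tor_compact h).isClosed
    · rw [e1]
      obtain ⟨x, hx⟩ := hne
      by_cases hx' : H x ∈ T
      · obtain ⟨B, hB, hs, A, A', -, -, hBS, hcl⟩ := (tor_flat hF h _ hx').tw _
          (oO.mem_nhds ⟨x, hx, rfl⟩)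
        obtain ⟨z, hz⟩ := closure_nonempty_iff.1 ⟨_, (hcl _ ⟨mem_of_mem_nhds hB, hx'⟩).1⟩
        have : z ∈ B \ T := hBS ▸ Or.inl hz
        exact ⟨z, hs this.1, this.2⟩
      · exact ⟨_, ⟨x, hx, rfl⟩, hx'⟩
  have cb : ContinuousOn (fun y => β (y, 0)) dΔ :=
    hβ.comp (by fun_prop) fun y hy => ⟨hy, trivial⟩
  obtain ⟨g, hg⟩ := ContinuousMap.exists_restrict_eq h.ball.isClosed_bdry
    ⟨dΔ.domRestrict fun y => β (y, 0), cb.restrict⟩
  have hg' : ∀ y ∈ dΔ, g y = β (y, 0) := fun y hy => congrArg (fun f => f.1 ⟨y, hy⟩) hg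
  exact hS Δ dΔ _ _ (fun y => H (r (g y))) h.ball h.pl h.fib hc hM
    (hH.cont.comp (cr.comp g.continuous)).continuousOn (fun y _ => ⟨_, r1 _, rfl⟩)
    fun y hy => by rw [hg' y hy, r2 (y, 0) ⟨hy, trivial⟩]

/-- compactness of the image of a closed set with bounded fundamental domain -/
lemma isCompact_img (hH : Per J H) {Z : Set V} (hZ : IsClosed Z) {R : ℝ}
    (h : ∀ x ∈ Z, ∃ l ∈ lat J, x + l ∈ Z ∧ ‖x + l‖ ≤ R) : IsCompact (H '' Z) := by
  have : H '' Z = H '' (closedBall 0 R ∩ Z) := by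
    refine Subset.antisymm ?_ (image_mono inter_subset_right)
    rintro _ ⟨x, hx, rfl⟩
    obtain ⟨l, hl, h1, h2⟩ := h x hx
    exact ⟨x + l, ⟨mem_closedBall_zero_iff.2 h2, h1⟩, hH.add x hl⟩
  rw [this]
  exact ((isCompact_closedBall _ _).inter_right hZ).image hH.cont

/-! ### translations -/

lemma Up_add {p q : P → V} {l : V} (hl : l 2 = 0) (e : ∀ x, x + l ∈ range q → x ∈ range p) {x : V}
    (hx : x ∈ Up p) : x + l ∈ Up q := by
  obtain ⟨z, hz, hj⟩ := hx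
  refine ⟨z + l, fun y => ?_, (hj.map (f := fun w => w + l) (by fun_prop)).mono ?_⟩
  · obtain ⟨w, hw⟩ := e (q y - l) ⟨y, by simp⟩
    have := hz w
    rw [hw] at this
    simpa [hl] using this
  · rintro _ ⟨w, hw, rfl⟩ h
    exact hw (e w h)

lemma Dn_add {p q : P → V} {l : V} (hl : l 2 = 0) (e : ∀ x, x + l ∈ range q → x ∈ range p) {x : V}
    (hx : x ∈ Dn p) : x + l ∈ Dn q := by
  obtain ⟨z, hz, hj⟩ := hx
  refine ⟨z + l, fun y => ?_, (hj.map (f := fun w => w + l) (by fun_prop)).mono ?_⟩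
  · obtain ⟨w, hw⟩ := e (q y - l) ⟨y, by simp⟩
    have := hz w
    rw [hw] at this
    simpa [hl] using this
  · rintro _ ⟨w, hw, rfl⟩ h
    exact hw (e w h)

lemma Rung.add_Up (h2 : (2 : Fin 3) ∉ J) (hu : Rung K J H c δ u) {l x : V} (hl : l ∈ lat J)
    (hx : x ∈ Up u) : x + l ∈ Up u :=
  Up_add ((hl 2).2 h2) (fun w hw => by simpa using add_mem_range h2 hu (neg_mem_lat hl) hw) hx

lemma Rung.add_Dn (h2 : (2 : Fin 3) ∉ J) (hu : Rung K J H c δ u) {l x : V} (hl : l ∈ lat J)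
    (hx : x ∈ Dn u) : x + l ∈ Dn u :=
  Dn_add ((hl 2).2 h2) (fun w hw => by simpa using add_mem_range h2 hu (neg_mem_lat hl) hw) hx

lemma Per.sat (hH : Per J H) {Z : Set V} (hZ : ∀ l ∈ lat J, ∀ x ∈ Z, x + l ∈ Z) (x : V)
    (hx : H x ∈ H '' Z) : x ∈ Z := by
  obtain ⟨z, hz, e⟩ := hx
  simpa using hZ _ ((hH.fib _ _).1 e.symm) z hz

lemma Rung.add_Blk (hd : Disjoint K J) (h2 : (2 : Fin 3) ∉ J) {c' δ' : ℝ} (hu : Rung K J H c δ u)
    (hu' : Rung K J H c' δ' u') : ∀ l ∈ lat J, ∀ x ∈ Blk K u u', x + l ∈ Blk K u u' := by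
  intro l hl x hx
  refine ⟨⟨fun i hi => ?_, add_mem_up h2 hu hl hx.1.2⟩,
    hx.2.imp (hu'.add_Dn h2 hl) (add_mem_range h2 hu' hl)⟩
  simpa [(hl i).2 (Finset.disjoint_left.1 hd hi)] using hx.1.1 i hi

lemma Rung.sub_Dn {c' δ' : ℝ} (hu : Rung K J H c δ u) (hu' : Rung K J H c' δ' u')
    (h : c + δ ≤ c' - δ') (y : P) : u y ∈ Dn u' :=
  mem_dn_of_le hu' (by linarith [(abs_lt.1 (hu.ht y)).2])

lemma Rung.sub_Up {c' δ' : ℝ} (hu : Rung K J H c δ u) (hu' : Rung K J H c' δ' u')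
    (h : c + δ ≤ c' - δ') (y : P) : u' y ∈ Up u :=
  mem_up_of_le hu (by linarith [(abs_lt.1 (hu'.ht y)).1])

lemma isCompact_blk (hF : FlatStmt) (hKJ : K ∪ J = {0, 1}) (hd : Disjoint K J) (hH : Per J H)
    {c' δ' : ℝ} (hu : Rung K J H c δ u) (hu' : Rung K J H c' δ' u') :
    IsCompact (H '' Blk K u u') := by
  have p := (hu.pln3 hF hKJ hH).toPln2
  have p' := (hu'.pln3 hF hKJ hH).toPln2
  have h2 := (two_not_mem hKJ).2
  refine isCompact_img hH (((isClosed_slab K).inter p.isClosed_Up).inter p'.isClosed_Dn)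
    (R := max 1 (max |c - δ| |c' + δ'|)) fun x hx => ?_
  obtain ⟨l, hl, hr⟩ := exists_red J x
  have hx' := hu.add_Blk hd h2 hu' _ (neg_mem_lat hl) x hx
  refine ⟨-l, neg_mem_lat hl, hx', ?_⟩
  rw [pi_norm_le_iff_of_nonneg (le_max_of_le_left zero_le_one)]
  intro i
  by_cases hi : i = 2
  · subst hi
    have b1 := lt_of_mem_up hu p.sepH hx'.1.2
    have b2 := lt_of_mem_dn hu' p'.sepH hx'.2
    refine le_max_of_le_right (abs_le.2 ⟨?_, ?_⟩)
    · linarith [neg_abs_le (c - δ), le_max_left |c - δ| |c' + δ'|]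
    · linarith [le_abs_self (c' + δ'), le_max_right |c - δ| |c' + δ'|]
  · have : i ∈ K ∪ J := by rw [hKJ]; revert hi; fin_cases i <;> simp
    refine le_max_of_le_left ?_
    rcases Finset.mem_union.1 this with h | h
    · exact hx'.1.1 i h
    · exact abs_le.2 ⟨by simp only [Pi.add_apply, Pi.neg_apply]; linarith [(hr i h).1],
        by simp only [Pi.add_apply, Pi.neg_apply]; linarith [(hr i h).2]⟩

/-- **the block between two tori is a manifold** -/
theorem mf_blk0 (hF : FlatStmt) (hH : Per {0, 1} H) {c' δ' : ℝ} (hu : Rung ∅ {0, 1} H c δ u)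
    (hu' : Rung ∅ {0, 1} H c' δ' u') (h : c + δ ≤ c' - δ') :
    Mf (H '' Blk ∅ u u') (H '' (range u ∪ range u')) ∧
      H '' Blk ∅ u u' \ H '' (range u ∪ range u') = H '' (Up u ∩ Dn u') := by
  have p := hu.pln3 hF (by simp) hH
  have p' := hu'.pln3 hF (by simp) hH
  have h2 : (2 : Fin 3) ∉ ({0, 1} : Finset (Fin 3)) := by decide
  have sR := hH.sat (Z := range u ∪ range u') fun l hl x hx =>
    hx.imp (add_mem_range h2 hu hl) (add_mem_range h2 hu' hl)
  have sB := hH.sat (hu.add_Blk (by simp) h2 hu')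
  have sl : ∀ x, x ∈ slab ∅ := fun x i hi => absurd hi (Finset.notMem_empty i)
  have e : H '' Blk ∅ u u' \ H '' (range u ∪ range u') = H '' (Up u ∩ Dn u') := by
    ext z; constructor
    · rintro ⟨⟨x, hx, rfl⟩, hn⟩
      exact ⟨x, ⟨hx.1.2.resolve_right fun h => hn ⟨x, Or.inl h, rfl⟩,
        hx.2.resolve_right fun h => hn ⟨x, Or.inr h, rfl⟩⟩, rfl⟩
    · rintro ⟨x, hx, rfl⟩
      exact ⟨⟨x, ⟨⟨sl x, Or.inl hx.1⟩, Or.inl hx.2⟩, rfl⟩,
        fun h => (sR x h).elim (Pln.Up_sub hx.1) (Pln.Dn_sub hx.2)⟩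
  have img : ∀ {x : V} {A B : Set V}, x ∈ closure A → MapsTo H A B → H x ∈ closure B :=
    fun hx hm => map_mem_closure hH.cont hx hm
  refine ⟨mf_of (image_mono ?_) (e ▸ hH.opn _ (p.isOpen_Up.inter p'.isOpen_Dn)) ?_, e⟩
  · rintro _ (⟨y, rfl⟩ | ⟨y, rfl⟩)
    · exact ⟨⟨sl _, Or.inr ⟨y, rfl⟩⟩, Or.inl (hu.sub_Dn hu' h y)⟩
    · exact ⟨⟨sl _, Or.inl (hu.sub_Up hu' h y)⟩, Or.inr ⟨y, rfl⟩⟩
  have ho : ∃ N ∈ (⊤ : Filter V), IsOpen (N \ H '' Blk ∅ u u') := ⟨univ, Filter.univ_mem, by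
    rw [← compl_eq_univ_diff]
    exact (isCompact_blk hF (by simp) (by simp) hH hu hu').isClosed.isOpen_compl⟩
  obtain ⟨N, hN, ho⟩ := ho
  rw [e]
  rintro _ ⟨_, ⟨y, rfl⟩ | ⟨y, rfl⟩, rfl⟩
  · refine ⟨p.toPln.flat hF hH hu.pl sR y (p'.isOpen_Dn.mem_nhds (hu.sub_Dn hu' h y)) fun z hz =>
      ⟨Or.inl, fun h => h.resolve_right (Pln.Dn_sub hz)⟩, ⟨N, le_top (a := 𝓝 _) hN, ho⟩,
      img (A := Dn u' ∩ Up u) (p'.isOpen_Dn.inter_closure ⟨hu.sub_Dn hu' h y, p.cl_Up y⟩)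
        fun z hz => ⟨z, hz.symm, rfl⟩, img (p.cl_Dn y) fun z hz h => ?_⟩
    have : z ∈ (Dn u)ᶜ := p.toPln2.compl_Dn ▸ (sB z h).1.2
    exact this hz
  · refine ⟨p'.toPln.flat hF hH hu'.pl sR y (p.isOpen_Up.mem_nhds (hu.sub_Up hu' h y)) fun z hz =>
      ⟨Or.inr, fun h => h.resolve_left (Pln.Up_sub hz)⟩, ⟨N, le_top (a := 𝓝 _) hN, ho⟩,
      img (A := Up u ∩ Dn u') (p.isOpen_Up.inter_closure ⟨hu.sub_Up hu' h y, p'.cl_Dn y⟩)
        fun z hz => ⟨z, hz, rfl⟩, img (p'.cl_Up y) fun z hz h => ?_⟩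
    have : z ∈ (Up u')ᶜ := p'.toPln2.compl_Up ▸ (sB z h).2
    exact this hz

end Crest.Agent.X212.Prd34
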